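import Vale.Agent.P200.Main

namespace Vale.Agent.Results.P200.Quadrics

open MvPolynomial

/-- The Eisenbud-Green-Harris conjecture for regular sequences of quadrics. -/
theorem result {K : Type*} [Field K] {n c : ℕ} (hc : c ≤ n)
    (f : Fin c → MvPolynomial (Fin n) K) (hf : ∀ i, (f i).IsHomogeneous 2)
    (hreg : RingTheory.Sequence.IsWeaklyRegular (MvPolynomial (Fin n) K) (List.ofFn f))
    (I : Ideal (MvPolynomial (Fin n) K)) (hI : ∀ i, f i ∈ I) :
    ∃ (E : Set (Fin n →₀ ℕ)) (J : Ideal (MvPolynomial (Fin n) K)),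
      J = Ideal.span ((fun β => monomial β (1 : K)) '' E) ∧
      (∀ i : Fin c, X (Fin.castLE hc i) ^ 2 ∈ J) ∧
      ∀ d : ℕ,
        Module.finrank K ↥(J.restrictScalars K ⊓ homogeneousSubmodule (Fin n) K d) =
        Module.finrank K ↥(I.restrictScalars K ⊓ homogeneousSubmodule (Fin n) K d) := by
  obtain ⟨E, h1, h2, h3⟩ := Vale.Agent.P200.egh_quadrics hc f hf
    ((Vale.Agent.P200.isReg_iff f).mpr hreg) I hI
  refine ⟨E, _, rfl, fun i => ?_, fun d => ?_⟩
  · rw [X_pow_eq_monomial]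
    exact Ideal.subset_span ⟨_, h2 _ i.2, rfl⟩
  · obtain ⟨T, hT, e⟩ := Vale.Agent.P200.monomial_ideal (K := K) E h1 d
    exact e.trans (h3 d T hT)

end Vale.Agent.Results.P200.Quadrics
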